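import Vale.Agent.P277W.St
import Vale.Agent.P277.A.Dim

/-!
# P277W: the rows of the proof
-/

open scoped Topology
open Vale.Agent.P272.K Vale.Agent.P285.H281.FD Vale.Agent.P277 Vale.Agent.P277Z.St Set Filter
open Function

noncomputable section

namespace Vale.Agent.P277W

/-- `κ K_X + Δ` is `f`-ample; `Q t` are the components of `Δ` -/
def Ample (X Z : CSp) (f : X.pt → Z.pt) (κ : ℝ) (Δ : Div X) : Prop :=
  ∃ (F : QF X) (s : ℕ) (Q : Fin s → PD X), Function.Injective Q ∧ range Q = Δ.support ∧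
    RAmple X Z f (Fin.cons F.K fun t => (F.C (Q t)).L : Fin (s + 1) → Bd X.pt)
      (Fin.cons (κ / F.m) fun t => Δ (Q t) / (F.C (Q t)).r)

/-- Generalized lc, `N = M_X`: on all resolutions `p = π ∘ q : W → X' → X` all prime divisors `E` have
coefficient `≤ 1` in `Δ_W = p^* (B + M_X) - (K_W - p^* K_X) - M_W`, where `M_W = q^* M'`. -/
def GPair.Glc {X : CSp} (G : GPair X) (N : Div X) : Prop :=
  ∃ F : QF X, ∀ (W : CSp) (q : W.pt → G.X'.pt), Resol W G.X' q →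
    ∀ (E : PD W) (o : PD X → ℝ) (a : ℝ) (ν : Fin G.k → ℝ),
    (∀ Q ∈ (G.B + N).support, (F.C Q).Pull (fun w => G.π (q w)) E (o Q)) →
    F.Disc (fun w => G.π (q w)) E a → (∀ j, (G.M j).Pull q E (ν j)) →
    ((G.B + N).sum fun Q d => d * o Q) - a - ∑ j, G.μ j * ν j ≤ 1

/-- a Cartier divisor in terms of a larger family of prime divisors -/
theorem QCart.enl {X : CSp} (C : QCart X) {κ : Type} (P : κ → PD X) (hP : Injective P)
    (hs : ↑C.D.support ⊆ range P) :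
    IsCart X (fun u => (P u).1) (fun u => C.D (P u)) C.L C.σ := by
  have h := C.cart
  have sub : ∀ x, x ∉ ⋃ u, (P u).1 → x ∉ ⋃ t : C.D.support, t.1.1 := fun x hx e => by
    obtain ⟨t, ht⟩ := mem_iUnion.1 e
    obtain ⟨u, hu⟩ := hs t.2
    exact hx (mem_iUnion.2 ⟨u, by rwa [hu]⟩)
  refine ⟨h.lb, ⟨fun i x hx => h.sec.holo i x (sub x hx),
    fun i j x hx => h.sec.change i j x (sub x hx)⟩, fun i x hi hx => h.ne i x hi (sub x hx),
    fun i x hi => ?_, fun u i g z ζ h1 h2 h3 h4 => ?_⟩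
  · obtain ⟨u, v, a, b, c⟩ := h.mer i x hi
    exact ⟨u, v, a, b, c.mono fun y k => ⟨k.1, fun e => k.2 (sub y e)⟩⟩
  by_cases hu : P u ∈ C.D.support
  · refine h.ord ⟨P u, hu⟩ i g z ζ h1 h2 h3 (h4.mono fun w hw t => ?_)
    obtain ⟨u', e⟩ := hs t.2
    have k := hw u'
    rw [e] at k
    refine k.trans (and_congr_left' ⟨fun a => Subtype.ext (a ▸ e.symm), fun a => hP ?_⟩)
    rw [e, a]
  · have h0 : g z ∉ ⋃ t : C.D.support, t.1.1 := fun e => by
      obtain ⟨t, ht⟩ := mem_iUnion.1 e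
      obtain ⟨u', e'⟩ := hs t.2
      have k := (h4.self_of_nhds u').1 (by rwa [e'])
      exact hu (k.1 ▸ e' ▸ t.2)
    refine ⟨fun w => C.σ i (g w), h1.1.analyticAt (h.sec.holo i _ h0 h2), h.ne i _ h2 h0,
      Eventually.of_forall fun w _ => ?_⟩
    simp [Finsupp.notMem_support_iff.1 hu]

/-- the data of `ℚ`-factoriality for a family of prime divisors -/
def QF.toQC {X : CSp} (F : QF X) {s : ℕ} (q : Fin s → PD X) (hq : Injective q) :
    QC X fun t => (q t).1 where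
  m := F.m
  K := F.K
  η := F.η
  c t := (F.C (q t)).r
  L t := (F.C (q t)).L
  σ t := (F.C (q t)).σ
  m_pos := F.pos
  c_pos t := (F.C (q t)).pos
  can := F.can
  cart t := by
    have h := (F.C (q t)).enl q hq (by
      rw [F.eq]
      exact fun Q hQ => ⟨t, (Finset.mem_singleton.1 (Finsupp.support_single_subset hQ)).symm⟩)
    convert h using 2 with u
    rw [F.eq, Finsupp.single_apply, Pi.single_apply]
    simp only [hq.eq_iff, eq_comm]

/-- families of prime divisors which are adapted to a pair -/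
structure Fam {X : CSp} (G : GPair X) {s e : ℕ} (q : Fin s → PD X)
    (P : Fin s ⊕ Fin e → PD G.X') : Prop where
  qi : Injective q
  pi : Injective P
  supp : ∀ j, ↑(G.M j).D.support ⊆ range P
  str : ∀ t, G.π '' (P (.inl t)).1 = (q t).1
  exc : ∀ u, DimLe X 2 (G.π '' (P (.inr u)).1)

/-- the pair in the old form -/
def Fam.gp {X : CSp} {G : GPair X} {s e : ℕ} {q : Fin s → PD X} {P : Fin s ⊕ Fin e → PD G.X'}
    (h : Fam G q P) (hn : IsNormal 4 G.X') (hk : Kah G.X') (hf : ∀ j, NefX G.X' (G.M j).L) :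
    GP X fun t => (q t).1 where
  b t := G.B (q t)
  X' := G.X'
  π := G.π
  e := e
  P u := (P u).1
  k := G.k
  μ := G.μ
  r j := (G.M j).r
  n j u := (G.M j).D (P u)
  N j := (G.M j).L
  τ j := (G.M j).σ
  b_nonneg t := G.eff (q t)
  normal := hn
  kah := hk
  bim := G.bim
  proj := G.proj
  prime u := (P u).2
  inj := Subtype.val_injective.comp h.pi
  str := h.str
  exc := h.exc
  μ_nonneg := G.nonneg
  r_pos j := (G.M j).pos
  cart j := (G.M j).enl P h.pi (h.supp j)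
  nef := hf

/-- **NRM** -/
def NRM : Prop := ∀ X : CSp, Four X → IsNormal 4 X ∧ ConnectedSpace X.pt

/-- **SMO** -/
def SMO : Prop := ∀ W : CSp, Nonempty W.pt → (∀ w, IsReg 4 W w) → IsNormal 4 W

/-- **ZB**: the main theorem of Zariski -/
def ZB : Prop := ∀ (X Y : CSp) (f : X.pt → Y.pt) (A : Set Y.pt), IsNormal 4 X → IsNormal 4 Y →
  IsBim X Y f A → ∃ A', IsBim X Y f A' ∧ DimLe Y 2 A'

/-- **IMG**: the image of a prime divisor -/
def IMG : Prop := ∀ (X Y : CSp) (f : X.pt → Y.pt) (E : Set X.pt), IsNormal 4 X →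
  (∀ x, HolMap X Y f x) → IsPrime X E → ¬ DimLe Y 2 (f '' E) → IsPrime Y (f '' E)

/-- **SURJ**: the strict transform exists -/
def SURJ : Prop := ∀ (X Y : CSp) (f : X.pt → Y.pt) (A D : Set Y.pt), IsNormal 4 X → IsNormal 4 Y →
  IsBim X Y f A → IsPrime Y D → ∃ E, IsPrime X E ∧ f '' E = D

/-- **THIN** -/
def THIN : Prop := ∀ (X : CSp) (E T : Set X.pt), IsNormal 4 X → IsPrime X E → IsAn X univ T →
  ¬ E ⊆ T → DimLe X 2 (E ∩ T)

/-- **HYP**: a smooth hypersurface has dimension three -/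
def HYP : Prop := ∀ (W : CSp) (g : Cm 4 → W.pt) (z : Cm 4) (ζ : Cm 4 → ℂ) (S : Set W.pt),
  IsCh W g z → Eqn ζ z → DimLe W 2 S → ∃ᶠ w in 𝓝 z, ζ w = 0 ∧ g w ∉ S

/-- **CHT**: charts are mapped to charts -/
def CHT : Prop := ∀ (W X : CSp) (q : W.pt → X.pt) (A : Set X.pt) (g : Cm 4 → W.pt) (z : Cm 4),
  IsBim W X q A → IsCh W g z → q (g z) ∉ A → IsCh X (fun w => q (g w)) z

/-- **OUN**: orders are unique and locally constant -/
def OUN : Prop := ∀ (F ζ : Cm 4 → ℂ) (z : Cm 4) (k : ℤ), Eqn ζ z → Ord F ζ z k →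
  (∀ k', Ord F ζ z k' → k = k') ∧ ∀ᶠ w in 𝓝 z, ζ w = 0 → Eqn ζ w ∧ Ord F ζ w k

/-- **LOCP**: a piece of an analytic hypersurface is a piece of a prime divisor -/
def LOCP : Prop := ∀ (W : CSp) (T : Set W.pt) (g : Cm 4 → W.pt) (z : Cm 4) (ζ : Cm 4 → ℂ),
  IsNormal 4 W → IsAn W univ T → Dense Tᶜ → IsCh W g z → Eqn ζ z →
  (∀ᶠ w in 𝓝 z, ζ w = 0 → g w ∈ T) →
  ∃ E, IsPrime W E ∧ ∃ᶠ z' in 𝓝 z, ζ z' = 0 ∧ ∀ᶠ w in 𝓝 z', (g w ∈ E ↔ ζ w = 0)

/-- **ORD**: `q_* q^* C = C` -/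
def ORD : Prop := ∀ (W X : CSp) (q : W.pt → X.pt) (A : Set X.pt) (C : QCart X) (E : PD W) (a : ℝ)
  (h : IsPrime X (q '' E.1)), IsNormal 4 W → IsNormal 4 X → IsBim W X q A → C.Pull q E a →
  a = C.D ⟨q '' E.1, h⟩ / C.r

/-- **GLC** -/
def GLC : Prop := ∀ (X : CSp) (G : GPair X) (s e : ℕ) (q : Fin s → PD X)
  (P : Fin s ⊕ Fin e → PD G.X') (h : Fam G q P) (hn : IsNormal 4 G.X') (hk : Kah G.X')
  (hf : ∀ j, NefX G.X' (G.M j).L) (N : Div X), IsNormal 4 X → ↑(G.B + N).support ⊆ range q →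
  (∀ t, (G.B + N) (q t) = (h.gp hn hk hf).d t) → G.Glc N → (h.gp hn hk hf).Glc

/-- **AMP** -/
def AMP : Prop := ∀ (X Z : CSp) (f : X.pt → Z.pt) (κ : ℝ) (Δ : Div X) (s : ℕ) (q : Fin s → PD X)
  (d : Fin s → ℝ), Injective q → ↑Δ.support ⊆ range q → (∀ t, Δ (q t) = d t) → Ample X Z f κ Δ →
  DAmple X Z f (fun t => (q t).1) κ d

/-- **CONE**: the closure of an algebraically open convex cone -/
def CONE : Prop := ∀ (V : Type) [AddCommGroup V] [Module ℝ V] (A B : Submodule ℝ V) (K : Set V),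
  K ⊆ A → (∀ a ∈ K, ∀ b ∈ K, a + b ∈ K) → (∀ a ∈ K, ∀ t : ℝ, 0 < t → t • a ∈ K) →
  (∀ a ∈ K, ∀ b ∈ A, ∃ t : ℝ, 0 < t ∧ a + t • b ∈ K) →
  ∀ c, InClosure A B K c → ∀ a ∈ K, ∃ b ∈ K, c + a - b ∈ B

/-- **KC**: the Kähler forms are an algebraically open convex cone -/
def KC : Prop := ∀ X : CSp, Loc (Sp X) ⊆ Loc (Sm X) ∧
  (∀ a ∈ Loc (Sp X), ∀ b ∈ Loc (Sp X), a + b ∈ Loc (Sp X)) ∧
  (∀ a ∈ Loc (Sp X), ∀ t : ℝ, 0 < t → t • a ∈ Loc (Sp X)) ∧
  (∀ a ∈ Loc (Sp X), ∀ b ∈ Submodule.span ℝ (Loc (Sm X)), ∃ t : ℝ, 0 < t ∧ a + t • b ∈ Loc (Sp X))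

/-- **KAH** -/
def KAH : Prop := ∀ X : CSp, Kahler X → Kah X

/-- **NEF** -/
def NEF : Prop := ∀ (X : CSp) (C : QCart X), Kahler X → C.Nef → NefX X C.L

/-- **EXP**: the pull back exists and is unique -/
def EXP : Prop := ∀ (W X : CSp) (q : W.pt → X.pt) (A : Set X.pt) (C : QCart X), IsNormal 4 W →
  IsNormal 4 X → IsBim W X q A → ∃! Γ : Div W, ∀ E, C.Pull q E (Γ E)

/-- **EXD**: the relative canonical divisor exists and is unique -/
def EXD : Prop := ∀ (W X : CSp) (q : W.pt → X.pt) (A : Set X.pt) (F : QF X), (∀ w, IsReg 4 W w) →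
  IsNormal 4 W → IsNormal 4 X → IsBim W X q A → ∃! Γ : Div W, ∀ E, F.Disc q E (Γ E)

/-- **PIC**: integral relations -/
def PIC : Prop := ∀ (X Z : CSp) (f : X.pt → Z.pt) (κ : ℝ) (Δ : Div X), Nonempty X.pt →
  IsAmple X Z f κ Δ → Ample X Z f κ Δ

end Vale.Agent.P277W
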