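import Vale.Agent.P277Z.St.Defs
import Mathlib.RingTheory.IntegralClosure.IntegrallyClosed
import Mathlib.Order.Filter.Germ.Basic
import Mathlib.Data.Finsupp.Order
import Mathlib.Topology.Algebra.Module.ModuleTopology

/-!
# P277W: generalized pairs on compact Kähler fourfolds, in the words of the problem
-/

open scoped Topology
open Vale.Agent.P272.K Vale.Agent.P285.H281.FD Vale.Agent.P277 Vale.Agent.P277Z.St Set Filter

noncomputable section

namespace Vale.Agent.P277W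

/-- the local ring `𝒪_{X,x}` of the germs of holomorphic functions at `x` -/
def stalk (X : CSp) (x : X.pt) : Subring (Germ (𝓝 x) ℂ) :=
  Subring.closure {γ | ∃ f : X.pt → ℂ, X.Hol f x ∧ γ = f}

/-- `X` is normal (the local rings are integrally closed domains), irreducible, and its smooth locus
is a manifold of dimension four. -/
structure Four (X : CSp) : Prop where
  normal : ∀ x, IsDomain (stalk X x) ∧ IsIntegrallyClosed (stalk X x)
  ne : Nonempty X.pt
  irr : ∀ A B, IsAn X univ A → IsAn X univ B → A ∪ B = univ → A = univ ∨ B = univ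
  dim : Dense {x | IsReg 4 X x}

/-! ### Bott-Chern cohomology, Kähler classes, nef line bundles -/

/-- the charts `g` of the smooth locus, with a point `z` -/
structure Ch (X : CSp) where
  /-- the inverse of the chart -/
  g : Cm 4 → X.pt
  /-- the point -/
  z : Cm 4
  ch : IsCh X g z

/-- `(1,1)`-forms on the smooth locus: the coefficients of `i dz_j ∧ dz̄_k` in all charts -/
abbrev Form (X : CSp) : Type := Ch X → Matrix (Fin 4) (Fin 4) ℂ

/-- `i∂∂̄u` -/
def ddc {X : CSp} (u : X.pt → ℝ) : Form X := fun c => cHess (fun w => u (c.g w)) c.z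

/-- the forms which are `i∂∂̄u` near every point `x`, for some `u` with `P u x` -/
def Loc {X : CSp} (P : (X.pt → ℝ) → X.pt → Prop) : Set (Form X) :=
  {α | ∀ x, ∃ u, P u x ∧ ∀ᶠ y in 𝓝 x, ∀ c : Ch X, c.g c.z = y → α c = ddc u c}

/-- `X` has a Kähler form with smooth local potentials -/
def Kahler (X : CSp) : Prop := (Loc (Sp X)).Nonempty

/-- `cl a` is in the closure of `cl '' K`, for the topology of `H` as a real vector space -/
def Clo {A H : Type} [AddCommGroup A] [Module ℝ A] [AddCommGroup H] [Module ℝ H] (cl : A →ₗ[ℝ] H)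
    (K : Set A) (a : A) : Prop :=
  cl a ∈ @closure H (moduleTopology ℝ H) (cl '' K)

/-- the class of `c` in `A / B` is in the closure of the set of the classes of the elements of `K` -/
def InClosure {V : Type} [AddCommGroup V] [Module ℝ V] (A B : Submodule ℝ V) (K : Set V) (c : V) :
    Prop :=
  ∃ a, A.subtype a = c ∧ Clo (B.submoduleOf A).mkQ (A.subtype ⁻¹' K) a

/-- `α` is the first Chern form of a smooth metric on `L` -/
def Chern (X : CSp) (L : Bd X.pt) (α : Form X) : Prop :=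
  ∃ ψ : L.ι → X.pt → ℝ, (∀ i, ∀ x ∈ L.U i, Sm X (ψ i) x) ∧
    (∀ i j x, x ∈ L.U i → x ∈ L.U j → ψ i x = ψ j x + Real.log (‖L.g i j x‖ ^ 2)) ∧
    ∀ i (c : Ch X), c.g c.z ∈ L.U i → α c = (2 * Real.pi)⁻¹ • ddc (ψ i) c

/-! ### divisors -/

/-- prime divisors -/
abbrev PD (X : CSp) : Type := {Q : Set X.pt // IsPrime X Q}

/-- `ℝ`-divisors -/
abbrev Div (X : CSp) : Type := PD X →₀ ℝ

open Classical in
/-- the push forward under a bimeromorphic morphism: the contracted components are dropped -/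
def push {X : CSp} (Y : CSp) (f : X.pt → Y.pt) (Γ : Div X) : Div Y :=
  Γ.sum fun E a => if h : IsPrime Y (f '' E.1) then Finsupp.single ⟨f '' E.1, h⟩ a else 0

/-- The functions `F i g` (in the charts `g`, on `U i`) have the order `k` along `E`: at some point,
where `E` is the smooth hypersurface `ζ = 0`, they are a unit times `ζ ^ k`. -/
def OrdE (W : CSp) (E : Set W.pt) {ι : Type} (U : ι → Set W.pt)
    (F : ι → (Cm 4 → W.pt) → Cm 4 → ℂ) (k : ℤ) : Prop :=
  ∃ i g z ζ, IsCh W g z ∧ g z ∈ U i ∧ Eqn ζ z ∧ (∀ᶠ w in 𝓝 z, g w ∈ E ↔ ζ w = 0) ∧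
    Ord (F i g) ζ z k

/-- the `ℚ`-Cartier divisor `(1 / r) D`: `D` is the divisor of the meromorphic section `σ` of `L` -/
structure QCart (X : CSp) where
  /-- the index -/
  r : ℕ
  /-- the Cartier divisor -/
  D : PD X →₀ ℤ
  /-- the line bundle `𝒪(D)` -/
  L : Bd X.pt
  /-- its canonical section -/
  σ : L.ι → X.pt → ℂ
  pos : 1 ≤ r
  cart : IsCart X (fun P : D.support => P.1.1) (fun P => D P.1) L σ

/-- `a` is the coefficient of `E` in the pull back under `p` -/
def QCart.Pull {X W : CSp} (C : QCart X) (p : W.pt → X.pt) (E : PD W) (a : ℝ) : Prop :=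
  ∃ k : ℤ, OrdE W E.1 (fun i => p ⁻¹' C.L.U i) (fun i g w => C.σ i (p (g w))) k ∧ a = k / C.r

/-- nef: `c₁` is in the closure of the Kähler cone in Bott-Chern cohomology (forms with smooth local
potentials modulo `i∂∂̄` of smooth functions) -/
def QCart.Nef {X : CSp} (C : QCart X) : Prop :=
  ∃ α, Chern X C.L α ∧
    InClosure (Submodule.span ℝ (Loc (Sm X))) (Submodule.span ℝ (ddc '' {u | ∀ x, Sm X u x}))
      (Loc (Sp X)) ((C.r : ℝ)⁻¹ • α)

/-- `ℚ`-factoriality: `K` is `ω^[m]`, and `C Q` is the prime divisor `Q` as a `ℚ`-Cartier divisor -/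
structure QF (X : CSp) where
  /-- the index of `K_X` -/
  m : ℕ
  /-- the line bundle `ω^[m]` -/
  K : Bd X.pt
  /-- its frames -/
  η : K.ι → (Cm 4 → X.pt) → Cm 4 → ℂ
  /-- the prime divisors -/
  C : PD X → QCart X
  pos : 1 ≤ m
  can : IsCan X m K η
  eq : ∀ Q, (C Q).D = Finsupp.single Q ((C Q).r : ℤ)

/-- `a` is the coefficient of `E` in `K_W - p^* K_X` -/
def QF.Disc {X W : CSp} (F : QF X) (p : W.pt → X.pt) (E : PD W) (a : ℝ) : Prop :=
  ∃ k : ℤ, OrdE W E.1 (fun i => p ⁻¹' F.K.U i) (fun i g => F.η i fun w => p (g w)) k ∧ a = k / F.m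

/-- line bundles -/
abbrev LB (X : CSp) : Type 1 := {L : Bd X.pt // IsLBx X L}

/-- `Pic X ⊗ ℝ` is the quotient of the real vector space with basis `LB X` by this subspace, which is
spanned by the `[L] + [M] - [N]` with `L ⊗ M ≅ N` -/
def PicRel (X : CSp) : Submodule ℝ (LB X →₀ ℝ) :=
  Submodule.span ℝ {v | ∃ L M N : LB X, HD.IsTriv X ((L.1.mul M.1).mul (Bd.inv N.1)) ∧
    v = Finsupp.single L 1 + Finsupp.single M 1 - Finsupp.single N 1}

/-- the class of `κ K_X + Δ` -/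
def QF.cl {X : CSp} (F : QF X) (κ : ℝ) (Δ : Div X) : LB X →₀ ℝ :=
  Finsupp.single ⟨F.K, F.can.lb⟩ (κ / F.m) +
    Δ.sum fun Q d => Finsupp.single ⟨(F.C Q).L, (F.C Q).cart.lb⟩ (d / (F.C Q).r)

/-- `κ K_X + Δ` is `f`-ample: in `Pic X ⊗ ℝ` it is a positive combination `a` of `f`-ample line
bundles -/
def IsAmple (X Z : CSp) (f : X.pt → Z.pt) (κ : ℝ) (Δ : Div X) : Prop :=
  ∃ (F : QF X) (a : LB X →₀ ℝ), a ≠ 0 ∧ (∀ A ∈ a.support, 0 < a A ∧ RelAmple X Z f A.1) ∧
    F.cl κ Δ - a ∈ PicRel X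

/-! ### generalized pairs and flips -/

/-- projective morphisms -/
def Proj (X Z : CSp) (f : X.pt → Z.pt) : Prop := ∃ A, IsLBx X A ∧ RelAmple X Z f A

/-- resolutions -/
def Resol (W X : CSp) (p : W.pt → X.pt) : Prop := (∀ w, IsReg 4 W w) ∧ ∃ A, IsBim W X p A

/-- a generalized pair `(X, B + 𝐌)` with `M' = ∑ j, μ j • M j` on `X'` -/
structure GPair (X : CSp) where
  /-- the boundary -/
  B : Div X
  /-- the space which carries the nef part -/
  X' : CSp
  /-- the map -/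
  π : X'.pt → X.pt
  /-- the number of the nef divisors -/
  k : ℕ
  /-- their coefficients -/
  μ : Fin k → ℝ
  /-- the nef divisors -/
  M : Fin k → QCart X'
  eff : 0 ≤ B
  four : Four X'
  kah : Kahler X'
  bim : ∃ A, IsBim X' X π A
  proj : Proj X' X π
  nonneg : ∀ j, 0 ≤ μ j
  nef : ∀ j, (M j).Nef

/-- `N` is the trace `M_Y` on `Y`, where `X ⇢ Y` is given by the correspondence `R`: it is
`p_* q^* M'` for a common resolution `p : W → Y`, `q : W → X'`. -/
def GPair.Trace {X : CSp} (G : GPair X) (Y : CSp) (R : X.pt → Y.pt → Prop) (N : Div Y) : Prop :=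
  ∃ (W : CSp) (p : W.pt → Y.pt) (q : W.pt → G.X'.pt) (Γ : Fin G.k → Div W), Resol W Y p ∧
    Resol W G.X' q ∧ (∀ w, R (G.π (q w)) (p w)) ∧ (∀ j E, (G.M j).Pull q E (Γ j E)) ∧
    N = push Y p (∑ j, G.μ j • Γ j)

/-- Generalized lc, `N = M_X`: on all resolutions `p = π ∘ q : W → X' → X` all prime divisors `E` have
coefficient `≤ 1` in `Δ_W = p^* (B + M_X) - (K_W - p^* K_X) - M_W`. Here `Γ Q = p^* Q`,
`A = K_W - p^* K_X`, `M j = q^* M'_j`. -/
def GPair.IsGlc {X : CSp} (G : GPair X) (N : Div X) : Prop :=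
  ∃ F : QF X, ∀ (W : CSp) (q : W.pt → G.X'.pt), Resol W G.X' q →
    ∀ (Γ : PD X → Div W) (A : Div W) (M : Fin G.k → Div W),
    (∀ Q E, (F.C Q).Pull (fun w => G.π (q w)) E (Γ Q E)) →
    (∀ E, F.Disc (fun w => G.π (q w)) E (A E)) → (∀ j E, (G.M j).Pull q E (M j E)) →
    ∀ E, (((G.B + N).sum fun Q d => d • Γ Q) - A - ∑ j, G.μ j • M j) E ≤ 1

/-- the correspondence `X 0 ⇢ X i` -/
def Rel {X Z : ℕ → CSp} (f : ∀ i, (X i).pt → (Z i).pt) (f' : ∀ i, (X (i + 1)).pt → (Z i).pt) :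
    ∀ i, (X 0).pt → (X i).pt → Prop
  | 0, x, y => x = y
  | i + 1, x, y => ∃ y', Rel f f' i x y' ∧ f i y' = f' i y

/-- An infinite sequence of flips `X i → Z i ← X (i + 1)` which starts from `G`; `B i` is the strict
transform of `B 0`, `M i` is the trace, `D i = K + B i + M i`. -/
structure Flips (X Z : ℕ → CSp) (f : ∀ i, (X i).pt → (Z i).pt)
    (f' : ∀ i, (X (i + 1)).pt → (Z i).pt) (G : GPair (X 0)) (B M : ∀ i, Div (X i)) : Prop where
  four : ∀ i, Four (X i) ∧ Four (Z i)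
  kah : ∀ i, Kahler (X i) ∧ Kahler (Z i)
  small : ∀ i, Small (X i) (Z i) (f i) ∧ Small (X (i + 1)) (Z i) (f' i)
  proj : ∀ i, Proj (X i) (Z i) (f i) ∧ Proj (X (i + 1)) (Z i) (f' i)
  start : B 0 = G.B
  str : ∀ i, push (Z i) (f i) (B i) = push (Z i) (f' i) (B (i + 1))
  trace : ∀ i, G.Trace (X i) (Rel f f' i) (M i)
  neg : ∀ i, IsAmple (X i) (Z i) (f i) (-1) (-(B i + M i))
  pos : ∀ i, IsAmple (X (i + 1)) (Z i) (f' i) 1 (B (i + 1) + M (i + 1))

end Vale.Agent.P277W
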